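import Vale.Agent.Lib.P310.Main

namespace Vale.Agent.Results.P310.OneTapeQuartic

open Vale.Agent.Lib.P310

/-- Every deterministic one-tape Turing machine, with finite state set `Q` and `|Q| + 1 ≤ 2 ^ b`,
that decides `k`-WL equivalence (`k ≥ 2`) of pairs of graphs on `n` vertices, given by their
adjacency matrices, and halts within `T` steps on all these inputs, has
`(n / 22) ^ 2 * n ^ 2 ≤ 4 * b * T`: its worst-case time is of order at least `n ^ 4`. -/
theorem result : ∀ (k n b T : ℕ) (Q Γ : Type) [Fintype Q] (M : TM Q Γ), 2 ≤ k →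
    Fintype.card Q + 1 ≤ 2 ^ b → M.DecidesWL k n T → (n / 22) ^ 2 * n ^ 2 ≤ 4 * b * T :=
  fun k n b T Q Γ _ M hk hb hM => one_tape_lower_bound k n b T Q Γ M hk hb hM

end Vale.Agent.Results.P310.OneTapeQuartic
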